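import Vale.Agent.P262.H395.Fib

/-!
# P262, block ACC: frozen rules, (*) and telescoping

States are payoffs `g : E → ℝ≥0∞` (indicator of the complement of the body, pulled back to the
coordinates of the node); processing order is increasing.  A life of a node `W' ≥ W` with cap `a`
(a function of the label `P_{W'} x`) is cut into blocks `k < n` with states `g 0, ..., g n` at the
block boundaries.  The rule `om k` of block `k` is a function of the label with values in `[0,1]`
which is `1` unless the fibre mass at the END of the block is at most the cap.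
-/

set_option linter.all false

open MeasureTheory ProbabilityTheory Set
open scoped ENNReal

namespace Vale.Agent.P262.H136

open Vale.Agent.P262.H395

/-- **(*) at one label.** -/
lemma star_label {a ds de om : ℝ≥0∞} (h1 : om ≤ 1) (h : om = 1 ∨ ds ≤ a) :
    max a ds + om * de ≤ max a de + om * ds + om * (a - ds) := by
  rcases h with rfl | h
  · rw [one_mul, one_mul, one_mul]
    rcases le_total ds a with h2 | h2
    · rw [max_eq_left h2, add_assoc, add_tsub_cancel_of_le h2, add_comm]
      gcongr
      exact le_max_right _ _
    · rw [max_eq_right h2, tsub_eq_zero_of_le h2, add_zero, add_comm]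
      gcongr
      exact le_max_right _ _
  · rw [max_eq_left h, add_assoc, ← mul_add, add_tsub_cancel_of_le h]
    rcases le_total de a with h2 | h2
    · rw [max_eq_left h2]
      gcongr
    · rw [max_eq_right h2]
      obtain ⟨k, rfl⟩ := exists_add_of_le h2
      calc a + om * (a + k) = a + om * k + om * a := by ring
        _ ≤ a + 1 * k + om * a := by gcongr
        _ = a + k + om * a := by ring

variable {E : Type*} [NormedAddCommGroup E] [InnerProductSpace ℝ E] [FiniteDimensional ℝ E]
  [MeasurableSpace E] [BorelSpace E]

/-- an outer average of `om * g` only sees the fibre average of `g` -/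
lemma fib_mul_fib {W W' : Submodule ℝ E} (hW : W ≤ W') {om g : E → ℝ≥0∞} (hom : Inv W' om)
    (homm : Measurable om) (hg : Measurable g) (x : E) :
    fib W (fun y => om y * fib W' g y) x = fib W (fun y => om y * g y) x := by
  rw [← fib_tower hW (f := fun y => om y * g y) (homm.mul hg)]
  congr 1
  funext y
  exact (fib_mul hom hg y).symm

/-- **(*)**: one block with a frozen rule, conditionally on the outer label. -/
theorem frozen_block {W W' : Submodule ℝ E} (hW : W ≤ W') {a om g g' : E → ℝ≥0∞}
    (ha : Measurable a) (hom : Inv W' om) (homm : Measurable om) (hom1 : ∀ y, om y ≤ 1)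
    (hg : Measurable g) (hg' : Measurable g') (hrule : ∀ y, om y = 1 ∨ fib W' g' y ≤ a y) (x : E) :
    fib W (fun y => max (a y) (fib W' g' y)) x + fib W (fun y => om y * g y) x
      ≤ fib W (fun y => max (a y) (fib W' g y)) x + fib W (fun y => om y * g' y) x
        + fib W (fun y => om y * (a y - fib W' g' y)) x := by
  rw [← fib_mul_fib hW hom homm hg, ← fib_mul_fib hW hom homm hg']
  have hf := measurable_fib (W := W') hg
  have hf' := measurable_fib (W := W') hg'
  have e1 := fib_add (W := W) (f := fun y => max (a y) (fib W' g' y))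
    (g := fun y => om y * fib W' g y) (ha.max hf') x
  have e2 := fib_add (W := W) (f := fun y => max (a y) (fib W' g y))
    (g := fun y => om y * fib W' g' y) (ha.max hf) x
  have e3 := fib_add (W := W) (f := fun y => max (a y) (fib W' g y) + om y * fib W' g' y)
    (g := fun y => om y * (a y - fib W' g' y)) ((ha.max hf).add (homm.mul hf')) x
  rw [← e1, ← e2, ← e3]
  exact fib_mono (fun y => star_label (hom1 y) (hrule y)) x

/-- telescoping over the blocks of one life (value functional form) -/
theorem frozen_blocks {W W' : Submodule ℝ E} (hW : W ≤ W') {a : E → ℝ≥0∞} (ha : Measurable a)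
    {om g : ℕ → E → ℝ≥0∞} {n : ℕ} (hom : ∀ k < n, Inv W' (om k))
    (homm : ∀ k < n, Measurable (om k)) (hom1 : ∀ k < n, ∀ y, om k y ≤ 1)
    (hg : ∀ k ≤ n, Measurable (g k))
    (hrule : ∀ k < n, ∀ y, om k y = 1 ∨ fib W' (g (k + 1)) y ≤ a y) (x : E) :
    fib W (fun y => max (a y) (fib W' (g n) y)) x
        + ∑ k ∈ Finset.range n, fib W (fun y => om k y * g k y) x
      ≤ fib W (fun y => max (a y) (fib W' (g 0) y)) x
        + ∑ k ∈ Finset.range n, (fib W (fun y => om k y * g (k + 1) y) x
          + fib W (fun y => om k y * (a y - fib W' (g (k + 1)) y)) x) := by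
  induction n with
  | zero => simp
  | succ n ih =>
    have ih' := ih (fun k hk => hom k (by omega)) (fun k hk => homm k (by omega))
      (fun k hk => hom1 k (by omega)) (fun k hk => hg k (by omega)) (fun k hk => hrule k (by omega))
    have h1 := frozen_block hW ha (hom n (by omega)) (homm n (by omega)) (hom1 n (by omega))
      (hg n (by omega)) (hg (n + 1) (by omega)) (hrule n (by omega)) x
    rw [Finset.sum_range_succ, Finset.sum_range_succ]
    calc fib W (fun y => max (a y) (fib W' (g (n + 1)) y)) x
          + (∑ k ∈ Finset.range n, fib W (fun y => om k y * g k y) x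
            + fib W (fun y => om n y * g n y) x)
        = (fib W (fun y => max (a y) (fib W' (g (n + 1)) y)) x
            + fib W (fun y => om n y * g n y) x)
          + ∑ k ∈ Finset.range n, fib W (fun y => om k y * g k y) x := by ring
      _ ≤ (fib W (fun y => max (a y) (fib W' (g n) y)) x + fib W (fun y => om n y * g (n + 1) y) x
            + fib W (fun y => om n y * (a y - fib W' (g (n + 1)) y)) x)
          + ∑ k ∈ Finset.range n, fib W (fun y => om k y * g k y) x := by gcongr
      _ = (fib W (fun y => max (a y) (fib W' (g n) y)) x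
            + ∑ k ∈ Finset.range n, fib W (fun y => om k y * g k y) x)
          + (fib W (fun y => om n y * g (n + 1) y) x
            + fib W (fun y => om n y * (a y - fib W' (g (n + 1)) y)) x) := by ring
      _ ≤ (fib W (fun y => max (a y) (fib W' (g 0) y)) x
            + ∑ k ∈ Finset.range n, (fib W (fun y => om k y * g (k + 1) y) x
              + fib W (fun y => om k y * (a y - fib W' (g (k + 1)) y)) x))
          + (fib W (fun y => om n y * g (n + 1) y) x
            + fib W (fun y => om n y * (a y - fib W' (g (n + 1)) y)) x) := add_le_add ih' le_rfl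
      _ = _ := by rw [add_assoc]

/-- opening: exact cost -/
lemma open_cost {W W' : Submodule ℝ E} (hW : W ≤ W') {a g : E → ℝ≥0∞} (ha : Measurable a)
    (hg : Measurable g) (x : E) :
    fib W (fun y => max (a y) (fib W' g y)) x
      = fib W g x + fib W (fun y => a y - fib W' g y) x := by
  have hf := measurable_fib (W := W') hg
  rw [← fib_tower hW hg, ← fib_add hf]
  congr 1
  funext y
  rcases le_total (a y) (fib W' g y) with h | h
  · rw [max_eq_right h, tsub_eq_zero_of_le h, add_zero]
  · rw [max_eq_left h, add_tsub_cancel_of_le h]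

/-- the opening cost only sees the body: `(a - D)₊ ≤ a (1 - D)` -/
lemma tsub_le_mul {a D : ℝ≥0∞} (ha : a ≤ 1) (hD : D ≤ 1) : a - D ≤ a * (1 - D) := by
  rw [tsub_le_iff_right]
  calc a = a * ((1 - D) + D) := by rw [tsub_add_cancel_of_le hD, mul_one]
    _ = a * (1 - D) + a * D := by rw [mul_add]
    _ ≤ a * (1 - D) + 1 * D := by gcongr
    _ = a * (1 - D) + D := by rw [one_mul]

/-- **one life**: open, blocks, close, with the exact opening cost.  Conditionally on the outer
label `P_W x`:
`fib W (g n) - fib W (g 0) ≤ fib W (a - D_0)_+ + Σ_k (fib W (om k (g (k+1) - g k)) + fib W (om k (a - D_{k+1})_+))`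
in additive form. -/
theorem frozen_life' {W W' : Submodule ℝ E} (hW : W ≤ W') {a : E → ℝ≥0∞} (ha : Measurable a)
    {om g : ℕ → E → ℝ≥0∞} {n : ℕ} (hom : ∀ k < n, Inv W' (om k))
    (homm : ∀ k < n, Measurable (om k)) (hom1 : ∀ k < n, ∀ y, om k y ≤ 1)
    (hg : ∀ k ≤ n, Measurable (g k))
    (hrule : ∀ k < n, ∀ y, om k y = 1 ∨ fib W' (g (k + 1)) y ≤ a y) (x : E) :
    fib W (g n) x + ∑ k ∈ Finset.range n, fib W (fun y => om k y * g k y) x
      ≤ fib W (g 0) x + fib W (fun y => a y - fib W' (g 0) y) x
        + ∑ k ∈ Finset.range n, (fib W (fun y => om k y * g (k + 1) y) x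
          + fib W (fun y => om k y * (a y - fib W' (g (k + 1)) y)) x) := by
  have h1 := frozen_blocks hW ha hom homm hom1 hg hrule x
  have h2 : fib W (g n) x ≤ fib W (fun y => max (a y) (fib W' (g n) y)) x := by
    rw [← fib_tower hW (hg n le_rfl)]
    exact fib_mono (fun y => le_max_right _ _) x
  rw [open_cost hW ha (hg 0 (Nat.zero_le _))] at h1
  exact (add_le_add h2 le_rfl).trans h1

/-- **one life**: the same with the opening cost bounded by the cap. -/
theorem frozen_life {W W' : Submodule ℝ E} (hW : W ≤ W') {a : E → ℝ≥0∞} (ha : Measurable a)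
    {om g : ℕ → E → ℝ≥0∞} {n : ℕ} (hom : ∀ k < n, Inv W' (om k))
    (homm : ∀ k < n, Measurable (om k)) (hom1 : ∀ k < n, ∀ y, om k y ≤ 1)
    (hg : ∀ k ≤ n, Measurable (g k))
    (hrule : ∀ k < n, ∀ y, om k y = 1 ∨ fib W' (g (k + 1)) y ≤ a y) (x : E) :
    fib W (g n) x + ∑ k ∈ Finset.range n, fib W (fun y => om k y * g k y) x
      ≤ fib W (g 0) x + fib W a x
        + ∑ k ∈ Finset.range n, (fib W (fun y => om k y * g (k + 1) y) x
          + fib W (fun y => om k y * (a y - fib W' (g (k + 1)) y)) x) := by
  refine (frozen_life' hW ha hom homm hom1 hg hrule x).trans ?_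
  gcongr
  exact fib_mono (fun y => tsub_le_self) x

end Vale.Agent.P262.H136
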