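import Vale.Agent.P262.H136.Ledger

/-!
# P262, milestone 2: sums over label paths at one state

A flag of one state: node `p : List ℕ` (path of classes, `c :: p` = child of `p` through class `c`)
has the label space `W p` (in the coordinates of the node), a label `x` of `p` chooses the child
`cls p x :: p`; `lf p` means that `p` is a leaf.

`gen w ψ φ k p x = E[ Σ_l (Π_{i<l} w_i) ψ_l + (Π w) φ_leaf | x ]`, the sum over the levels `l` below
`x` (at most `k` of them), all products over the levels strictly below `x`.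
-/

set_option linter.all false

open MeasureTheory ProbabilityTheory Set
open scoped ENNReal

namespace Vale.Agent.P262.H136

open Vale.Agent.P262.H395

/-- the label dependent flag of one state -/
structure Flg (E : Type*) [NormedAddCommGroup E] [InnerProductSpace ℝ E] where
  W : List ℕ → Submodule ℝ E
  cls : List ℕ → E → ℕ
  lf : List ℕ → Prop

namespace Flg

variable {E : Type*} [NormedAddCommGroup E] [InnerProductSpace ℝ E] [FiniteDimensional ℝ E]
  [MeasurableSpace E] [BorelSpace E]

/-- a family of functions on the labels of all nodes -/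
abbrev Fam (E : Type*) := List ℕ → E → ℝ≥0∞

open Classical in
/-- sums over label paths -/
noncomputable def gen (F : Flg E) (w : List ℕ → E → ℝ≥0∞) (ψ : ℕ → List ℕ → E → ℝ≥0∞)
    (φ : List ℕ → E → ℝ≥0∞) : ℕ → List ℕ → E → ℝ≥0∞
  | 0, p => φ p
  | k + 1, p => fun x => if F.lf p then φ p x else
      fib (F.W p) (fun y => ψ k (F.cls p x :: p) y
        + w (F.cls p x :: p) y * gen F w ψ φ k (F.cls p x :: p) y) x

variable {F : Flg E} {w w' : List ℕ → E → ℝ≥0∞} {ψ ψ' : ℕ → List ℕ → E → ℝ≥0∞}
  {φ φ' : List ℕ → E → ℝ≥0∞} {k : ℕ} {p : List ℕ} {x : E}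

@[simp] lemma gen_zero : F.gen w ψ φ 0 p x = φ p x := rfl

lemma gen_leaf (h : F.lf p) (k : ℕ) : F.gen w ψ φ k p x = φ p x := by
  cases k with
  | zero => rfl
  | succ k => simp only [gen]; rw [if_pos h]

lemma gen_succ (h : ¬ F.lf p) : F.gen w ψ φ (k + 1) p x =
    fib (F.W p) (fun y => ψ k (F.cls p x :: p) y
        + w (F.cls p x :: p) y * F.gen w ψ φ k (F.cls p x :: p) y) x := by
  simp only [gen]
  rw [if_neg h]

lemma measurable_gen (hc : ∀ p, Measurable (F.cls p)) (hw : ∀ p, Measurable (w p))
    (hψ : ∀ k p, Measurable (ψ k p)) (hφ : ∀ p, Measurable (φ p)) :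
    ∀ k p, Measurable (F.gen w ψ φ k p) := by
  intro k
  induction k with
  | zero => exact hφ
  | succ k ih =>
    intro p
    by_cases h : F.lf p
    · have : F.gen w ψ φ (k + 1) p = φ p := by funext x; exact gen_leaf h _
      rw [this]
      exact hφ p
    · have : F.gen w ψ φ (k + 1) p = fun x => (fun c => fib (F.W p) (fun y => ψ k (c :: p) y
          + w (c :: p) y * F.gen w ψ φ k (c :: p) y)) (F.cls p x) x := by
        funext x; exact gen_succ h
      rw [this]
      exact Tree.measurable_sel (F := fun c => fib (F.W p) (fun y => ψ k (c :: p) y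
          + w (c :: p) y * F.gen w ψ φ k (c :: p) y))
        (fun c => measurable_fib ((hψ k _).add ((hw _).mul (ih _)))) (hc p)

/-- monotonicity, with a hypothesis only where it is needed -/
lemma gen_mono' (hψ : ∀ k p y, ψ k p y ≤ ψ' k p y) (hw : ∀ p y, w p y ≤ w' p y)
    (hφ : ∀ p y, φ p y ≤ φ' p y) : ∀ k p x, F.gen w ψ φ k p x ≤ F.gen w' ψ' φ' k p x := by
  intro k
  induction k with
  | zero => exact hφ
  | succ k ih =>
    intro p x
    by_cases h : F.lf p
    · rw [gen_leaf h, gen_leaf h]; exact hφ p x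
    · rw [gen_succ h, gen_succ h]
      exact fib_mono (fun y => add_le_add (hψ _ _ _) (mul_le_mul' (hw _ _) (ih _ _))) x

lemma gen_mono (hψ : ∀ k p y, ψ k p y ≤ ψ' k p y) (hφ : ∀ p y, φ p y ≤ φ' p y) (k : ℕ)
    (p : List ℕ) (x : E) : F.gen w ψ φ k p x ≤ F.gen w ψ' φ' k p x :=
  gen_mono' hψ (fun _ _ => le_rfl) hφ k p x

/-- the main induction principle for inequalities -/
lemma gen_le_of {V : ℕ → List ℕ → E → ℝ≥0∞} (h0 : ∀ p x, φ p x ≤ V 0 p x)
    (hlf : ∀ k p x, F.lf p → φ p x ≤ V (k + 1) p x)
    (hs : ∀ k p x, ¬ F.lf p → (∀ y, F.gen w ψ φ k (F.cls p x :: p) y ≤ V k (F.cls p x :: p) y) →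
      fib (F.W p) (fun y => ψ k (F.cls p x :: p) y
        + w (F.cls p x :: p) y * V k (F.cls p x :: p) y) x ≤ V (k + 1) p x) :
    ∀ k p x, F.gen w ψ φ k p x ≤ V k p x := by
  intro k
  induction k with
  | zero => exact h0
  | succ k ih =>
    intro p x
    by_cases h : F.lf p
    · rw [gen_leaf h]; exact hlf k p x h
    · rw [gen_succ h]
      refine le_trans ?_ (hs k p x h (ih _))
      exact fib_mono (fun y => add_le_add le_rfl (mul_le_mul' le_rfl (ih _ _))) x

lemma gen_add (hc : ∀ p, Measurable (F.cls p)) (hw : ∀ p, Measurable (w p))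
    (hψ : ∀ k p, Measurable (ψ k p)) (hφ : ∀ p, Measurable (φ p)) :
    ∀ k p x, F.gen w (fun k p y => ψ k p y + ψ' k p y) (fun p y => φ p y + φ' p y) k p x
      = F.gen w ψ φ k p x + F.gen w ψ' φ' k p x := by
  intro k
  induction k with
  | zero => intro p x; rfl
  | succ k ih =>
    intro p x
    by_cases h : F.lf p
    · rw [gen_leaf h, gen_leaf h, gen_leaf h]
    · rw [gen_succ h, gen_succ h, gen_succ h]
      have hm := measurable_gen hc hw hψ hφ k
      rw [← fib_add (f := fun y => ψ k (F.cls p x :: p) y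
        + w (F.cls p x :: p) y * F.gen w ψ φ k (F.cls p x :: p) y)
        ((hψ _ _).add ((hw _).mul (hm _)))]
      congr 1
      funext y
      rw [ih]
      ring

/-- only prices -/
lemma gen_add_price (hc : ∀ p, Measurable (F.cls p)) (hw : ∀ p, Measurable (w p))
    (hψ : ∀ k p, Measurable (ψ k p)) (hφ : ∀ p, Measurable (φ p)) (k : ℕ) (p : List ℕ) (x : E) :
    F.gen w (fun k p y => ψ k p y + ψ' k p y) φ k p x
      = F.gen w ψ φ k p x + F.gen w ψ' (fun _ _ => 0) k p x := by
  rw [← gen_add hc hw hψ hφ]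
  congr 1
  funext p y
  rw [add_zero]

/-- prices and payoff separated -/
lemma gen_split (hc : ∀ p, Measurable (F.cls p)) (hw : ∀ p, Measurable (w p))
    (hψ : ∀ k p, Measurable (ψ k p)) (k : ℕ) (p : List ℕ) (x : E) :
    F.gen w ψ φ k p x
      = F.gen w ψ (fun _ _ => 0) k p x + F.gen w (fun _ _ _ => 0) φ k p x := by
  rw [← gen_add (φ := fun _ _ => 0) hc hw hψ (fun _ => measurable_const)]
  congr 1
  · funext k p y
    rw [add_zero]
  · funext p y
    rw [zero_add]

lemma gen_const_mul (hc : ∀ p, Measurable (F.cls p)) (hw : ∀ p, Measurable (w p))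
    (hψ : ∀ k p, Measurable (ψ k p)) (hφ : ∀ p, Measurable (φ p)) (C : ℝ≥0∞) :
    ∀ k p x, F.gen w (fun k p y => C * ψ k p y) (fun p y => C * φ p y) k p x
      = C * F.gen w ψ φ k p x := by
  intro k
  induction k with
  | zero => intro p x; rfl
  | succ k ih =>
    intro p x
    by_cases h : F.lf p
    · rw [gen_leaf h, gen_leaf h]
    · rw [gen_succ h, gen_succ h]
      have hm := measurable_gen hc hw hψ hφ k
      have := fib_mul (W := F.W p) (g := fun _ => C) (f := fun y => ψ k (F.cls p x :: p) y
        + w (F.cls p x :: p) y * F.gen w ψ φ k (F.cls p x :: p) y) (inv_const _ C)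
        ((hψ _ _).add ((hw _).mul (hm _))) x
      rw [← this]
      congr 1
      funext y
      rw [ih]
      ring

lemma gen_zero_zero : ∀ k p x, F.gen w (fun _ _ _ => 0) (fun _ _ => 0) k p x = 0 := by
  intro k
  induction k with
  | zero => intro p x; rfl
  | succ k ih =>
    intro p x
    by_cases h : F.lf p
    · rw [gen_leaf h]
    · rw [gen_succ h]
      have : (fun y => (0 : ℝ≥0∞) + w (F.cls p x :: p) y
          * F.gen w (fun _ _ _ => 0) (fun _ _ => 0) k (F.cls p x :: p) y) = fun _ => 0 := by
        funext y; rw [ih]; simp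
      rw [this, fib_const]

/-- finite sums of prices -/
lemma gen_sum {ι : Type*} (s : Finset ι) {Ψ : ι → ℕ → List ℕ → E → ℝ≥0∞}
    (hc : ∀ p, Measurable (F.cls p)) (hw : ∀ p, Measurable (w p))
    (hΨ : ∀ i k p, Measurable (Ψ i k p)) (k : ℕ) (p : List ℕ) (x : E) :
    F.gen w (fun k p y => ∑ i ∈ s, Ψ i k p y) (fun _ _ => 0) k p x
      = ∑ i ∈ s, F.gen w (Ψ i) (fun _ _ => 0) k p x := by
  classical
  induction s using Finset.induction_on with
  | empty => simp only [Finset.sum_empty]; exact gen_zero_zero k p x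
  | insert i s hi ih =>
    have e : (fun k p y => ∑ j ∈ insert i s, Ψ j k p y)
        = fun k p y => Ψ i k p y + ∑ j ∈ s, Ψ j k p y := by
      funext k p y; exact Finset.sum_insert hi
    rw [e, gen_add_price hc hw (hΨ i) (fun _ => measurable_const), Finset.sum_insert hi, ih]

/-- bounded data: bounded sums -/
lemma gen_le_const {C : ℝ≥0∞} (hw : ∀ p y, w p y ≤ 1) (hψ : ∀ k p y, ψ k p y ≤ C)
    (hφ : ∀ p y, φ p y ≤ C) : ∀ k p x, F.gen w ψ φ k p x ≤ (k + 1) * C := by
  intro k
  induction k with
  | zero => intro p x; simpa using hφ p x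
  | succ k ih =>
    intro p x
    by_cases h : F.lf p
    · rw [gen_leaf h]
      refine (hφ p x).trans ?_
      calc C = 1 * C := (one_mul C).symm
        _ ≤ _ := mul_le_mul' (by simp) le_rfl
    · rw [gen_succ h]
      refine (fib_mono (g := fun _ => ((k + 1 : ℕ) + 1 : ℝ≥0∞) * C) (fun y => ?_) x).trans_eq
        (fib_const _ _ _)
      calc ψ k (F.cls p x :: p) y + w (F.cls p x :: p) y * F.gen w ψ φ k (F.cls p x :: p) y
          ≤ C + 1 * ((k + 1) * C) := add_le_add (hψ _ _ _) (mul_le_mul' (hw _ _) (ih _ _))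
        _ = ((k + 1 : ℕ) + 1 : ℝ≥0∞) * C := by push_cast; ring

lemma gen_ne_top {C : ℝ≥0∞} (hC : C ≠ ∞) (hw : ∀ p y, w p y ≤ 1) (hψ : ∀ k p y, ψ k p y ≤ C)
    (hφ : ∀ p y, φ p y ≤ C) (k : ℕ) (p : List ℕ) (x : E) : F.gen w ψ φ k p x ≠ ∞ := by
  refine ne_top_of_le_ne_top (ENNReal.mul_ne_top ?_ hC) (gen_le_const hw hψ hφ k p x)
  exact_mod_cast ENNReal.natCast_ne_top (k + 1)

/-- **decomposition by the first stopped level**: if the averages of `φ` are consistent then the
stopped part and the counted part add up to `φ`. -/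
lemma gen_tower (hw : ∀ p y, w p y ≤ 1)
    (hφ : ∀ p x, ¬ F.lf p → fib (F.W p) (φ (F.cls p x :: p)) x = φ p x) :
    ∀ k p x, F.gen w (fun _ q y => (1 - w q y) * φ q y) φ k p x = φ p x := by
  intro k
  induction k with
  | zero => intro p x; rfl
  | succ k ih =>
    intro p x
    by_cases h : F.lf p
    · rw [gen_leaf h]
    · rw [gen_succ h, ← hφ p x h]
      congr 1
      funext y
      rw [ih, ← add_mul, tsub_add_cancel_of_le (hw _ _), one_mul]

/-- **multiplicity one** (power field): `u + s ≤ w` at every label. -/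
lemma gen_mult {s u : List ℕ → E → ℝ≥0∞} (hc : ∀ p, Measurable (F.cls p))
    (hs : ∀ p, Measurable (s p)) (hu : ∀ p, Measurable (u p)) (hφ : ∀ p, Measurable (φ p))
    (hwm : ∀ p, Measurable (w p)) (h : ∀ p y, u p y + s p y ≤ w p y) :
    ∀ k p x, F.gen w (fun k q y => u q y * F.gen s (fun _ _ _ => 0) φ k q y) (fun _ _ => 0) k p x
        + F.gen s (fun _ _ _ => 0) φ k p x ≤ F.gen w (fun _ _ _ => 0) φ k p x := by
  intro k
  induction k with
  | zero => intro p x; simp
  | succ k ih =>
    intro p x
    by_cases hl : F.lf p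
    · rw [gen_leaf hl, gen_leaf hl, gen_leaf hl, zero_add]
    · rw [gen_succ hl, gen_succ hl, gen_succ hl]
      have hms := measurable_gen (F := F) (w := s) (ψ := fun _ _ _ => 0) (φ := φ) hc hs
        (fun _ _ => measurable_const) hφ
      have hmw := measurable_gen (F := F) (w := w)
        (ψ := fun k q y => u q y * F.gen s (fun _ _ _ => 0) φ k q y) (φ := fun _ _ => 0) hc hwm
        (fun k q => (hu q).mul (hms k q)) (fun _ => measurable_const)
      have e1 := fib_add (W := F.W p) (f := fun y => u (F.cls p x :: p) y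
          * F.gen s (fun _ _ _ => 0) φ k (F.cls p x :: p) y + w (F.cls p x :: p) y
          * F.gen w (fun k q y => u q y * F.gen s (fun _ _ _ => 0) φ k q y) (fun _ _ => 0) k
            (F.cls p x :: p) y)
        (g := fun y => 0 + s (F.cls p x :: p) y * F.gen s (fun _ _ _ => 0) φ k (F.cls p x :: p) y)
        (((hu _).mul (hms _ _)).add ((hwm _).mul (hmw _ _))) x
      rw [← e1]
      refine fib_mono (fun y => ?_) x
      set q := F.cls p x :: p
      calc u q y * F.gen s (fun _ _ _ => 0) φ k q y
            + w q y * F.gen w (fun k q y => u q y * F.gen s (fun _ _ _ => 0) φ k q y)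
              (fun _ _ => 0) k q y
            + (0 + s q y * F.gen s (fun _ _ _ => 0) φ k q y)
          = (u q y + s q y) * F.gen s (fun _ _ _ => 0) φ k q y
            + w q y * F.gen w (fun k q y => u q y * F.gen s (fun _ _ _ => 0) φ k q y)
              (fun _ _ => 0) k q y := by ring
        _ ≤ w q y * F.gen s (fun _ _ _ => 0) φ k q y
            + w q y * F.gen w (fun k q y => u q y * F.gen s (fun _ _ _ => 0) φ k q y)
              (fun _ _ => 0) k q y := by gcongr; exact h q y
        _ = w q y * (F.gen w (fun k q y => u q y * F.gen s (fun _ _ _ => 0) φ k q y)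
              (fun _ _ => 0) k q y + F.gen s (fun _ _ _ => 0) φ k q y) := by ring
        _ ≤ w q y * F.gen w (fun _ _ _ => 0) φ k q y := mul_le_mul' le_rfl (ih q y)
        _ = 0 + w q y * F.gen w (fun _ _ _ => 0) φ k q y := by rw [zero_add]

/-! ### path form -/

/-- product of the weights along the path of a point, in the coordinates of node `p`; `P q` is the
isometry from the coordinates of `q` to those of its parent. -/
noncomputable def prd (F : Flg E) (P : List ℕ → E ≃ₗᵢ[ℝ] E) (w : List ℕ → E → ℝ≥0∞) :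
    ℕ → List ℕ → E → ℝ≥0∞
  | 0, _ => fun _ => 1
  | k + 1, p => fun y => open Classical in if F.lf p then 1 else
      w (F.cls p y :: p) ((P (F.cls p y :: p)).symm y)
        * prd F P w k (F.cls p y :: p) ((P (F.cls p y :: p)).symm y)

lemma measurable_prd {P : List ℕ → E ≃ₗᵢ[ℝ] E} (hc : ∀ p, Measurable (F.cls p))
    (hw : ∀ p, Measurable (w p)) : ∀ k p, Measurable (F.prd P w k p) := by
  intro k
  induction k with
  | zero => intro p; exact measurable_const
  | succ k ih =>
    intro p
    by_cases h : F.lf p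
    · have : F.prd P w (k + 1) p = fun _ => 1 := by funext y; simp only [prd]; rw [if_pos h]
      rw [this]; exact measurable_const
    · have : F.prd P w (k + 1) p = fun y => (fun c y => w (c :: p) ((P (c :: p)).symm y)
          * F.prd P w k (c :: p) ((P (c :: p)).symm y)) (F.cls p y) y := by
        funext y; simp only [prd]; rw [if_neg h]
      rw [this]
      exact Tree.measurable_sel (F := fun c y => w (c :: p) ((P (c :: p)).symm y)
          * F.prd P w k (c :: p) ((P (c :: p)).symm y))
        (fun c => ((hw _).comp (P (c :: p)).symm.continuous.measurable).mul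
          ((ih _).comp (P (c :: p)).symm.continuous.measurable)) (hc p)

/-- **path form of the counted mean**: payoffs `g` of the nodes, consistent under the frames. -/
theorem gen_eq_prd {P : List ℕ → E ≃ₗᵢ[ℝ] E} {g : List ℕ → E → ℝ≥0∞}
    (hc : ∀ p, Measurable (F.cls p)) (hcW : ∀ p, Tree.InvN (F.W p) (F.cls p))
    (hw : ∀ p, Measurable (w p)) (hwW : ∀ p, Inv (F.W p) (w p)) (hg : ∀ p, Measurable (g p))
    (hW : ∀ c p, F.W p ≤ F.W (c :: p)) (hP : ∀ c p, ∀ u ∈ F.W p, P (c :: p) u = u)
    (hgP : ∀ c p y, g (c :: p) y = g p (P (c :: p) y)) :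
    ∀ k p x, F.gen w (fun _ _ _ => 0) (fun p => fib (F.W p) (g p)) k p x
      = fib (F.W p) (fun y => F.prd P w k p y * g p y) x := by
  intro k
  induction k with
  | zero => intro p x; simp [prd]
  | succ k ih =>
    intro p x
    by_cases h : F.lf p
    · rw [gen_leaf h]
      congr 1
      funext y
      simp only [prd]
      rw [if_pos h, one_mul]
    · rw [gen_succ h]
      have e1 : (fun y => F.prd P w (k + 1) p y * g p y) = fun y => (fun c y =>
          (fun z => w (c :: p) z * (F.prd P w k (c :: p) z * g (c :: p) z))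
            ((P (c :: p)).symm y)) (F.cls p y) y := by
        funext y
        simp only [prd]
        rw [if_neg h, hgP, LinearIsometryEquiv.apply_symm_apply, mul_assoc]
      rw [e1, Tree.fib_sel (hcW p) (fun c y =>
          (fun z => w (c :: p) z * (F.prd P w k (c :: p) z * g (c :: p) z))
            ((P (c :: p)).symm y))]
      set q := F.cls p x :: p with hq
      have hm : Measurable fun z => w q z * (F.prd P w k q z * g q z) :=
        (hw q).mul ((measurable_prd hc hw k q).mul (hg q))
      have e2 := fib_isom (W := F.W p) (Q := (P q).symm) (fun u hu => by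
        rw [LinearIsometryEquiv.symm_apply_eq]; exact (hP _ _ u hu).symm) hm x
      simp only at e2 ⊢
      rw [e2, ← fib_tower (hW (F.cls p x) p) hm]
      congr 1
      funext y
      rw [zero_add, ih]
      exact (fib_mul (hwW q) ((measurable_prd hc hw k q).mul (hg q)) y).symm

end Flg

end Vale.Agent.P262.H136
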