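import Vale.Agent.P262.H136.Frozen
import Vale.Agent.P262.H395.Tree

/-!
# P262, block ACC, part 2: the ledger calculus

`Bd W g g' p m`: going from the payoff `g` to the payoff `g'`, at every label `P_W x`,
`fib W g' + fib W m ≤ fib W g + fib W p`.
-/

set_option linter.all false

open MeasureTheory ProbabilityTheory Set
open scoped ENNReal RealInnerProductSpace

namespace Vale.Agent.P262.H136

open Vale.Agent.P262.H395

variable {E : Type*} [NormedAddCommGroup E] [InnerProductSpace ℝ E] [FiniteDimensional ℝ E]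
  [MeasurableSpace E] [BorelSpace E]

/-! ### isometries fixing the label -/

/-- an isometry fixing `W` pointwise commutes with the projection to `W` -/
lemma proj_isom {W : Submodule ℝ E} {Q : E ≃ₗᵢ[ℝ] E} (hQ : ∀ w ∈ W, Q w = w) (x : E) :
    W.starProjection (Q x) = W.starProjection x := by
  have h1 : Q x - W.starProjection x ∈ Wᗮ := by
    rw [Submodule.mem_orthogonal]
    intro w hw
    have h2 : Q x - W.starProjection x = Q (x - W.starProjection x) := by
      rw [map_sub, hQ _ (Submodule.starProjection_apply_mem W x)]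
    rw [h2, ← hQ w hw, Q.inner_map_map]
    exact (Submodule.mem_orthogonal W _).1 (Submodule.sub_starProjection_mem_orthogonal x) w hw
  have h3 := proj_eq_zero h1
  rw [map_sub, proj_proj, sub_eq_zero] at h3
  exact h3

lemma map_stdGaussian_isom (Q : E ≃ₗᵢ[ℝ] E) : (stdGaussian E).map Q = stdGaussian E :=
  stdGaussian_map Q

lemma mp_isom (Q : E ≃ₗᵢ[ℝ] E) : MeasurePreserving (fun x => Q x) (stdGaussian E) (stdGaussian E) :=
  ⟨Q.continuous.measurable, map_stdGaussian_isom Q⟩

/-- the fibre average does not change under an isometry fixing the labels -/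
lemma fib_isom {W : Submodule ℝ E} {Q : E ≃ₗᵢ[ℝ] E} (hQ : ∀ w ∈ W, Q w = w) {g : E → ℝ≥0∞}
    (hg : Measurable g) (x : E) : fib W (fun y => g (Q y)) x = fib W g x := by
  unfold fib
  have h1 : ∀ z, Q (mix W x z) = mix W x (Q z) := by
    intro z
    unfold mix
    rw [map_add, map_sub, hQ _ (Submodule.starProjection_apply_mem W x),
      hQ _ (Submodule.starProjection_apply_mem W z), proj_isom hQ z]
  simp_rw [h1]
  exact (mp_isom Q).lintegral_comp (hg.comp (measurable_mix_right W x))

/-! ### the calculus -/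

/-- ledger inequality -/
def Bd (W : Submodule ℝ E) (g g' p m : E → ℝ≥0∞) : Prop :=
  ∀ x, fib W g' x + fib W m x ≤ fib W g x + fib W p x

/-- an elementary change, accounted by itself -/
lemma Bd.elem (W : Submodule ℝ E) (g g' : E → ℝ≥0∞) : Bd W g g' g' g := fun x => by rw [add_comm]

/-- nothing happens -/
lemma Bd.refl (W : Submodule ℝ E) (g : E → ℝ≥0∞) : Bd W g g (fun _ => 0) (fun _ => 0) :=
  fun x => le_rfl

/-- the fibre average is monotone / a free decrease -/
lemma Bd.of_le {W : Submodule ℝ E} {g g' : E → ℝ≥0∞} (h : ∀ x, g' x ≤ g x) :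
    Bd W g g' (fun _ => 0) (fun _ => 0) := fun x => add_le_add (fib_mono h x) le_rfl

/-- change of frame: an isometry fixing the labels `W` -/
lemma Bd.frame {W : Submodule ℝ E} {Q : E ≃ₗᵢ[ℝ] E} (hQ : ∀ w ∈ W, Q w = w) {g : E → ℝ≥0∞}
    (hg : Measurable g) : Bd W g (fun y => g (Q y)) (fun _ => 0) (fun _ => 0) :=
  fun x => by rw [fib_isom hQ hg]

lemma Bd.frame' {W : Submodule ℝ E} {Q : E ≃ₗᵢ[ℝ] E} (hQ : ∀ w ∈ W, Q w = w) {g : E → ℝ≥0∞}
    (hg : Measurable g) : Bd W (fun y => g (Q y)) g (fun _ => 0) (fun _ => 0) :=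
  fun x => by rw [fib_isom hQ hg]

lemma Bd.trans {W : Submodule ℝ E} {g g' g'' p p' m m' : E → ℝ≥0∞} (hp : Measurable p)
    (hm : Measurable m) (h : Bd W g g' p m) (h' : Bd W g' g'' p' m') :
    Bd W g g'' (fun y => p y + p' y) (fun y => m y + m' y) := by
  intro x
  rw [fib_add hp, fib_add hm]
  calc fib W g'' x + (fib W m x + fib W m' x) = (fib W g'' x + fib W m' x) + fib W m x := by ring
    _ ≤ (fib W g' x + fib W p' x) + fib W m x := add_le_add (h' x) le_rfl
    _ = (fib W g' x + fib W m x) + fib W p' x := by ring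
    _ ≤ (fib W g x + fib W p x) + fib W p' x := add_le_add (h x) le_rfl
    _ = _ := by ring

lemma Bd.mono {W : Submodule ℝ E} {g g' p p' m m' : E → ℝ≥0∞} (h : Bd W g g' p m)
    (hp : ∀ y, p y ≤ p' y) (hm : ∀ y, m' y ≤ m y) : Bd W g g' p' m' := fun x =>
  (add_le_add le_rfl (fib_mono hm x)).trans ((h x).trans (add_le_add le_rfl (fib_mono hp x)))

/-- classes of labels -/
lemma Bd.cls {W : Submodule ℝ E} {c : E → ℕ} (hc : Tree.InvN W c) {g g' : ℕ → E → ℝ≥0∞}
    {p m : ℕ → E → ℝ≥0∞} (h : ∀ k, Bd W (g k) (g' k) (p k) (m k)) :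
    Bd W (fun y => g (c y) y) (fun y => g' (c y) y) (fun y => p (c y) y) (fun y => m (c y) y) := by
  intro x
  rw [Tree.fib_sel hc g, Tree.fib_sel hc g', Tree.fib_sel hc p, Tree.fib_sel hc m]
  exact h (c x) x

/-- from a finer label to a coarser one with a frozen weight -/
lemma Bd.weight {W W' : Submodule ℝ E} (hW : W ≤ W') {w g g' p m : E → ℝ≥0∞} (hw : Inv W' w)
    (hwm : Measurable w) (hg : Measurable g) (hg' : Measurable g') (hp : Measurable p)
    (hm : Measurable m) (h : Bd W' g g' p m) :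
    Bd W (fun y => w y * g y) (fun y => w y * g' y) (fun y => w y * p y) (fun y => w y * m y) := by
  intro x
  rw [← fib_mul_fib hW hw hwm hg, ← fib_mul_fib hW hw hwm hg', ← fib_mul_fib hW hw hwm hp,
    ← fib_mul_fib hW hw hwm hm]
  have e1 := fib_add (W := W) (f := fun y => w y * fib W' g' y) (g := fun y => w y * fib W' m y)
    (hwm.mul (measurable_fib hg')) x
  have e2 := fib_add (W := W) (f := fun y => w y * fib W' g y) (g := fun y => w y * fib W' p y)
    (hwm.mul (measurable_fib hg)) x
  rw [← e1, ← e2]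
  refine fib_mono (fun y => ?_) x
  rw [← mul_add, ← mul_add]
  exact mul_le_mul' le_rfl (h y)

/-- **one life, ledger form**: from the ledgers of the blocks at the finer label `W'`.  Prices of the
life: `(a - D_start)₊` (opening) and `om k * (a - D_end)₊` for every block. -/
theorem Bd.life {W W' : Submodule ℝ E} (hW : W ≤ W') {a : E → ℝ≥0∞} (ha : Measurable a)
    {om g p m : ℕ → E → ℝ≥0∞} {n : ℕ} (hom : ∀ k < n, Inv W' (om k))
    (homm : ∀ k < n, Measurable (om k)) (hom1 : ∀ k < n, ∀ y, om k y ≤ 1)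
    (hg : ∀ k ≤ n, Measurable (g k)) (hp : ∀ k < n, Measurable (p k))
    (hm : ∀ k < n, Measurable (m k))
    (hrule : ∀ k < n, ∀ y, om k y = 1 ∨ fib W' (g (k + 1)) y ≤ a y)
    (hfin : ∀ k ≤ n, ∀ y, g k y ≤ 1)
    (h : ∀ k < n, Bd W' (g k) (g (k + 1)) (p k) (m k)) :
    Bd W (g 0) (g n)
      (fun y => (a y - fib W' (g 0) y)
        + ∑ k ∈ Finset.range n, om k y * (p k y + (a y - fib W' (g (k + 1)) y)))
      (fun y => ∑ k ∈ Finset.range n, om k y * m k y) := by
  intro x
  have h1 := frozen_life' hW ha hom homm hom1 hg hrule x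
  -- fibre averages of sums
  have hsum : ∀ (F : ℕ → E → ℝ≥0∞) (n' : ℕ), (∀ k < n', Measurable (F k)) →
      fib W (fun y => ∑ k ∈ Finset.range n', F k y) x = ∑ k ∈ Finset.range n', fib W (F k) x := by
    intro F n'
    induction n' with
    | zero => intro _; simp [fib]
    | succ n' ih =>
      intro hF
      have e : (fun y => ∑ k ∈ Finset.range (n' + 1), F k y)
          = fun y => (∑ k ∈ Finset.range n', F k y) + F n' y := by
        funext y; rw [Finset.sum_range_succ]
      rw [e, fib_add_right (hF n' (by omega)), ih fun k hk => hF k (by omega),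
        Finset.sum_range_succ]
  have hDm : ∀ k < n, Measurable fun y => a y - fib W' (g (k + 1)) y := fun k hk =>
    ha.sub (measurable_fib (hg (k + 1) (by omega)))
  have e0 := fib_add (W := W) (f := fun y => a y - fib W' (g 0) y)
    (g := fun y => ∑ k ∈ Finset.range n, om k y * (p k y + (a y - fib W' (g (k + 1)) y)))
    (ha.sub (measurable_fib (hg 0 (Nat.zero_le _)))) x
  rw [e0, hsum (fun k y => om k y * m k y) n fun k hk => (homm k hk).mul (hm k hk),
    hsum (fun k y => om k y * (p k y + (a y - fib W' (g (k + 1)) y))) n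
      fun k hk => (homm k hk).mul ((hp k hk).add (hDm k hk))]
  -- weight the ledgers of the blocks
  have hw : ∀ k < n, fib W (fun y => om k y * g (k + 1) y) x + fib W (fun y => om k y * m k y) x
      ≤ fib W (fun y => om k y * g k y) x + fib W (fun y => om k y * p k y) x := fun k hk =>
    Bd.weight hW (hom k hk) (homm k hk) (hg k hk.le) (hg (k + 1) hk) (hp k hk) (hm k hk) (h k hk) x
  have hsplit : ∀ k < n, fib W (fun y => om k y * (p k y + (a y - fib W' (g (k + 1)) y))) x
      = fib W (fun y => om k y * p k y) x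
        + fib W (fun y => om k y * (a y - fib W' (g (k + 1)) y)) x := by
    intro k hk
    have := fib_add (W := W) (f := fun y => om k y * p k y)
      (g := fun y => om k y * (a y - fib W' (g (k + 1)) y)) ((homm k hk).mul (hp k hk)) x
    rw [← this]
    congr 1
    funext y
    ring
  -- cancel the finite sum of the weighted states
  set S1 := ∑ k ∈ Finset.range n, fib W (fun y => om k y * g k y) x with hS1
  set S2 := ∑ k ∈ Finset.range n, fib W (fun y => om k y * g (k + 1) y) x with hS2
  have hfS : ∀ (G : ℕ → E → ℝ≥0∞), (∀ k < n, ∀ y, G k y ≤ 1) →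
      ∑ k ∈ Finset.range n, fib W (fun y => om k y * G k y) x ≠ ∞ := by
    intro G hG
    apply ne_of_lt
    refine ENNReal.sum_lt_top.2 fun k hk => ?_
    rw [Finset.mem_range] at hk
    refine lt_of_le_of_lt (fib_le_one (fun y => ?_) x) ENNReal.one_lt_top
    calc om k y * G k y ≤ 1 * 1 := mul_le_mul' (hom1 k hk y) (hG k hk y)
      _ = 1 := one_mul 1
  have hS1f : S1 ≠ ∞ := hfS g fun k hk => hfin k hk.le
  have hS2f : S2 ≠ ∞ := hfS (fun k => g (k + 1)) fun k hk => hfin (k + 1) hk
  have h2 : S2 + ∑ k ∈ Finset.range n, fib W (fun y => om k y * m k y) x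
      ≤ S1 + ∑ k ∈ Finset.range n, fib W (fun y => om k y * p k y) x := by
    rw [hS1, hS2, ← Finset.sum_add_distrib, ← Finset.sum_add_distrib]
    exact Finset.sum_le_sum fun k hk => hw k (Finset.mem_range.1 hk)
  have h3 : ∑ k ∈ Finset.range n, fib W (fun y => om k y * (p k y + (a y - fib W' (g (k + 1)) y))) x
      = ∑ k ∈ Finset.range n, fib W (fun y => om k y * p k y) x
        + ∑ k ∈ Finset.range n, fib W (fun y => om k y * (a y - fib W' (g (k + 1)) y)) x := by
    rw [← Finset.sum_add_distrib]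
    exact Finset.sum_congr rfl fun k hk => hsplit k (Finset.mem_range.1 hk)
  rw [Finset.sum_add_distrib] at h1
  rw [h3]
  set M := ∑ k ∈ Finset.range n, fib W (fun y => om k y * m k y) x
  set P := ∑ k ∈ Finset.range n, fib W (fun y => om k y * p k y) x
  set R := ∑ k ∈ Finset.range n, fib W (fun y => om k y * (a y - fib W' (g (k + 1)) y)) x
  set A0 := fib W (fun y => a y - fib W' (g 0) y) x
  -- h1 : g n + S1 ≤ g 0 + a + (S2 + R);  h2 : S2 + M ≤ S1 + P
  have h4 : (fib W (g n) x + M) + (S1 + S2) ≤ (fib W (g 0) x + (A0 + (P + R))) + (S1 + S2) := by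
    calc (fib W (g n) x + M) + (S1 + S2) = (fib W (g n) x + S1) + (S2 + M) := by ring
      _ ≤ (fib W (g 0) x + A0 + (S2 + R)) + (S1 + P) := add_le_add h1 h2
      _ = _ := by ring
  exact (ENNReal.add_le_add_iff_right (ENNReal.add_ne_top.2 ⟨hS1f, hS2f⟩)).1 h4

end Vale.Agent.P262.H136
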