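import Vale.Agent.P262.H136.Gen

/-!
# P262, milestone 2: the conditional ledger for class lists, prefix times

Moves `r < n`.  During the move `r` the flag is `F r`, the rules `om r` (zero or one), the caps
`a r`; `D r p x` is the value (fibre mass of the complement of the body) of the label `x` of node `p`
before the move, `H r p x` the value after it (same flag).  Between the moves `r` and `r + 1`
nothing moves, but lives of nodes (`r + 1 ∈ nw p`) and blocks of labels (`x ∈ bs p (r + 1)`) may
start.
-/

set_option linter.all false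

open MeasureTheory ProbabilityTheory Set
open scoped ENNReal

namespace Vale.Agent.P262.H136

open Vale.Agent.P262.H395

/-- hypotheses on the arrays -/
structure Net {E : Type*} [NormedAddCommGroup E] [InnerProductSpace ℝ E] [FiniteDimensional ℝ E]
    [MeasurableSpace E] [BorelSpace E] (F : ℕ → Flg E) (D H a om : ℕ → List ℕ → E → ℝ≥0∞)
    (bs : List ℕ → ℕ → Set E) (nw : List ℕ → Set ℕ) (n : ℕ) : Prop where
  cm : ∀ r p, Measurable ((F r).cls p)
  Dm : ∀ r p, Measurable (D r p)
  Hm : ∀ r p, Measurable (H r p)
  am : ∀ r p, Measurable (a r p)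
  omm : ∀ r p, Measurable (om r p)
  bsm : ∀ r p, MeasurableSet (bs p r)
  D1 : ∀ r p x, D r p x ≤ 1
  H1 : ∀ r p x, H r p x ≤ 1
  a1 : ∀ r p x, a r p x ≤ 1
  om01 : ∀ r p x, om r p x = 0 ∨ om r p x = 1
  /-- values of a label are averages of the values of its children -/
  towD : ∀ r, r < n → ∀ p x, ¬ (F r).lf p → fib ((F r).W p) (D r ((F r).cls p x :: p)) x = D r p x
  towH : ∀ r, r < n → ∀ p x, ¬ (F r).lf p → fib ((F r).W p) (H r ((F r).cls p x :: p)) x = H r p x
  /-- nodes whose life goes on -/
  lifeW : ∀ r, r + 1 < n → ∀ p, r + 1 ∉ nw p → (F (r + 1)).W p = (F r).W p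
  lifeA : ∀ r, r + 1 < n → ∀ p, r + 1 ∉ nw p → a (r + 1) p = a r p
  lifeL : ∀ r, r + 1 < n → ∀ p, r + 1 ∉ nw p → ((F (r + 1)).lf p ↔ (F r).lf p)
  still : ∀ r, r + 1 < n → ∀ p, r + 1 ∉ nw p → D (r + 1) p = H r p
  /-- labels whose block goes on -/
  blkC : ∀ r, r + 1 < n → ∀ p x, x ∉ bs p (r + 1) → (F (r + 1)).cls p x = (F r).cls p x
  blkO : ∀ r, r + 1 < n → ∀ p x, x ∉ bs p (r + 1) → om (r + 1) p x = om r p x
  /-- a new life is a new block -/
  nwb : ∀ r, r < n → ∀ p x, r ∈ nw p → x ∈ bs p r
  /-- a new block starts and ends lives of the children -/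
  bsn : ∀ r, r < n → ∀ p x, x ∈ bs p r → ¬ (F r).lf p → r ∈ nw ((F r).cls p x :: p)
  bse : ∀ r, r + 1 < n → ∀ p x, x ∈ bs p (r + 1) → ¬ (F r).lf p →
    r + 1 ∈ nw ((F r).cls p x :: p)
  /-- the rule -/
  rule : ∀ r, r + 1 < n → ∀ p x, x ∈ bs p (r + 1) → om r p x = 0 → H r p x ≤ a r p x

namespace Net

variable {E : Type*} [NormedAddCommGroup E] [InnerProductSpace ℝ E] [FiniteDimensional ℝ E]
  [MeasurableSpace E] [BorelSpace E] {F : ℕ → Flg E} {D H a om : ℕ → List ℕ → E → ℝ≥0∞}
  {bs : List ℕ → ℕ → Set E} {nw : List ℕ → Set ℕ} {n : ℕ}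

open Classical in
/-- value at the start of the current block of the label -/
noncomputable def Db (D : ℕ → List ℕ → E → ℝ≥0∞) (bs : List ℕ → ℕ → Set E) :
    ℕ → List ℕ → E → ℝ≥0∞
  | 0, p => D 0 p
  | r + 1, p => fun x => if x ∈ bs p (r + 1) then D (r + 1) p x else Db D bs r p x

/-- the frozen part of the potential of a label -/
noncomputable def pot (D a om : ℕ → List ℕ → E → ℝ≥0∞) (bs : List ℕ → ℕ → Set E) (r : ℕ) :
    ℕ → List ℕ → E → ℝ≥0∞ :=
  fun _ p y => (a r p y - Db D bs r p y) + (1 - om r p y) * Db D bs r p y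

/-- **the potential** of a label during move `r` with current values `X` -/
noncomputable def V (F : ℕ → Flg E) (D a om : ℕ → List ℕ → E → ℝ≥0∞) (bs : List ℕ → ℕ → Set E)
    (r : ℕ) (X : List ℕ → E → ℝ≥0∞) : ℕ → List ℕ → E → ℝ≥0∞ :=
  (F r).gen (om r) (pot D a om bs r) X

/-- opening prices below a label, move `r` -/
noncomputable def opn (F : ℕ → Flg E) (D a om : ℕ → List ℕ → E → ℝ≥0∞) (r : ℕ) :
    ℕ → List ℕ → E → ℝ≥0∞ :=
  (F r).gen (om r) (fun _ q y => a r q y - D r q y) (fun _ _ => 0)

/-- what is missing at a time inside blocks -/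
noncomputable def cut (F : ℕ → Flg E) (a om : ℕ → List ℕ → E → ℝ≥0∞) (r : ℕ)
    (X : List ℕ → E → ℝ≥0∞) : ℕ → List ℕ → E → ℝ≥0∞ :=
  (F r).gen (om r) (fun _ q y => (1 - om r q y) * (X q y - a r q y)) (fun _ _ => 0)

open Classical in
/-- labelwise prices between the moves `r` and `r + 1` -/
noncomputable def prl (D H a om : ℕ → List ℕ → E → ℝ≥0∞) (bs : List ℕ → ℕ → Set E)
    (nw : List ℕ → Set ℕ) (r : ℕ) : ℕ → List ℕ → E → ℝ≥0∞ :=
  fun _ q y => if r + 1 ∈ nw q then a (r + 1) q y - D (r + 1) q y
    else if y ∈ bs q (r + 1) then om r q y * (a r q y - H r q y) else 0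

/-- prices below a label between the moves `r` and `r + 1` -/
noncomputable def pr (F : ℕ → Flg E) (D H a om : ℕ → List ℕ → E → ℝ≥0∞)
    (bs : List ℕ → ℕ → Set E) (nw : List ℕ → Set ℕ) (r : ℕ) : ℕ → List ℕ → E → ℝ≥0∞ :=
  (F (r + 1)).gen (om (r + 1)) (prl D H a om bs nw r) (fun _ _ => 0)

variable (N : Net F D H a om bs nw n)
include N

lemma om1 (r : ℕ) (p : List ℕ) (x : E) : om r p x ≤ 1 := by
  rcases N.om01 r p x with h | h <;> rw [h]
  exact zero_le_one

lemma Db_meas (r : ℕ) (p : List ℕ) : Measurable (Db D bs r p) := by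
  induction r with
  | zero => exact N.Dm 0 p
  | succ r ih => exact Measurable.ite (N.bsm _ _) (N.Dm _ _) ih

lemma Db1 (r : ℕ) (p : List ℕ) (x : E) : Db D bs r p x ≤ 1 := by
  induction r with
  | zero => exact N.D1 _ _ _
  | succ r ih =>
    simp only [Db]
    split_ifs
    exacts [N.D1 _ _ _, ih]

omit N in
lemma Db_new {r : ℕ} {p : List ℕ} {x : E} (h : x ∈ bs p r) : Db D bs r p x = D r p x := by
  cases r with
  | zero => rfl
  | succ r => simp only [Db]; rw [if_pos h]

omit N in
lemma Db_old {r : ℕ} {p : List ℕ} {x : E} (h : x ∉ bs p (r + 1)) :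
    Db D bs (r + 1) p x = Db D bs r p x := by
  simp only [Db]; rw [if_neg h]

lemma pot_meas (r k : ℕ) (p : List ℕ) : Measurable (pot D a om bs r k p) :=
  ((N.am r p).sub (N.Db_meas r p)).add ((measurable_const.sub (N.omm r p)).mul (N.Db_meas r p))

lemma pot_le (r k : ℕ) (p : List ℕ) (x : E) : pot D a om bs r k p x ≤ 2 := by
  have h1 : a r p x - Db D bs r p x ≤ 1 := tsub_le_self.trans (N.a1 r p x)
  have h2 : (1 - om r p x) * Db D bs r p x ≤ 1 * 1 :=
    mul_le_mul' tsub_le_self (N.Db1 r p x)
  calc pot D a om bs r k p x ≤ 1 + 1 * 1 := add_le_add h1 h2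
    _ = 2 := by norm_num

lemma V_meas (r : ℕ) {X : List ℕ → E → ℝ≥0∞} (hX : ∀ p, Measurable (X p)) (k : ℕ) (p : List ℕ) :
    Measurable (V F D a om bs r X k p) :=
  Flg.measurable_gen (N.cm r) (N.omm r) (N.pot_meas r) hX k p

lemma V_ne_top (r : ℕ) {X : List ℕ → E → ℝ≥0∞} (hX : ∀ p x, X p x ≤ 1) (k : ℕ) (p : List ℕ)
    (x : E) : V F D a om bs r X k p x ≠ ∞ :=
  Flg.gen_ne_top (C := 2) (by norm_num) (N.om1 r) (N.pot_le r)
    (fun p y => (hX p y).trans (by norm_num)) k p x

/-- **start**: the potential of a label all of whose children are new. -/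
lemma V_start {r : ℕ} (hr : r < n) : ∀ k p x, (¬ (F r).lf p → r ∈ nw ((F r).cls p x :: p)) →
    V F D a om bs r (D r) k p x = D r p x + opn F D a om r k p x := by
  intro k
  induction k with
  | zero => intro p x _; simp [V, opn]
  | succ k ih =>
    intro p x hx
    by_cases h : (F r).lf p
    · unfold V opn
      rw [Flg.gen_leaf h, Flg.gen_leaf h, add_zero]
    · have hq := hx h
      unfold V opn
      rw [Flg.gen_succ h, Flg.gen_succ h, ← N.towD r hr p x h, ← fib_add (N.Dm r _)]
      congr 1
      funext y
      have hy := N.nwb r hr _ y hq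
      have h1 := ih ((F r).cls p x :: p) y (fun hl => N.bsn r hr _ y hy hl)
      unfold V opn at h1
      rw [h1]
      unfold pot
      rw [Db_new hy]
      rcases N.om01 r ((F r).cls p x :: p) y with h0 | h0 <;> rw [h0]
      · simp [add_comm]
      · simp [add_comm, add_left_comm, add_assoc]

/-- **end**: the potential of a label all of whose children die. -/
lemma V_end {r : ℕ} (hr : r + 1 < n) : ∀ k p x, (¬ (F r).lf p →
    r + 1 ∈ nw ((F r).cls p x :: p)) → H r p x ≤ V F D a om bs r (H r) k p x := by
  intro k
  induction k with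
  | zero => intro p x _; exact le_rfl
  | succ k ih =>
    intro p x hx
    by_cases h : (F r).lf p
    · unfold V
      rw [Flg.gen_leaf h]
    · have hq := hx h
      unfold V
      rw [Flg.gen_succ h, ← N.towH r (by omega) p x h]
      refine fib_mono (fun y => ?_) x
      have hy := N.nwb (r + 1) hr _ y hq
      have h1 := ih ((F r).cls p x :: p) y (fun hl => N.bse r hr _ y hy hl)
      rcases N.om01 r ((F r).cls p x :: p) y with h0 | h0
      · rw [h0, zero_mul, add_zero]
        unfold pot
        rw [h0, tsub_zero, one_mul]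
        exact (N.rule r hr _ y hy h0).trans le_tsub_add
      · rw [h0, one_mul]
        exact h1.trans le_add_self

/-- **cut**: at any time the value of a label is at most its potential up to the stopped labels. -/
lemma le_V_cut {r : ℕ} {X : List ℕ → E → ℝ≥0∞} (hXm : ∀ p, Measurable (X p))
    (hX : ∀ p x, ¬ (F r).lf p → fib ((F r).W p) (X ((F r).cls p x :: p)) x = X p x)
    (k : ℕ) (p : List ℕ) (x : E) :
    X p x ≤ V F D a om bs r X k p x + cut F a om r X k p x := by
  have h1 := Flg.gen_tower (F := F r) (w := om r) (φ := X) (N.om1 r) hX k p x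
  rw [← h1]
  unfold V cut
  rw [← Flg.gen_add_price (N.cm r) (N.omm r) (N.pot_meas r) hXm]
  refine Flg.gen_mono (fun k q y => ?_) (fun _ _ => le_rfl) k p x
  unfold pot
  calc (1 - om r q y) * X q y ≤ (1 - om r q y) * ((a r q y - Db D bs r q y) + Db D bs r q y
        + (X q y - a r q y)) := by
        refine mul_le_mul' le_rfl ?_
        calc X q y ≤ (X q y - a r q y) + a r q y := le_tsub_add
          _ ≤ (X q y - a r q y) + ((a r q y - Db D bs r q y) + Db D bs r q y) := by
            gcongr; exact le_tsub_add
          _ = _ := by rw [add_comm]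
    _ = (1 - om r q y) * (a r q y - Db D bs r q y) + (1 - om r q y) * Db D bs r q y
        + (1 - om r q y) * (X q y - a r q y) := by ring
    _ ≤ 1 * (a r q y - Db D bs r q y) + (1 - om r q y) * Db D bs r q y
        + (1 - om r q y) * (X q y - a r q y) := by gcongr; exact tsub_le_self
    _ = _ := by rw [one_mul]

/-- **a move**: equality -/
lemma V_move (r k : ℕ) (p : List ℕ) (x : E) :
    V F D a om bs r (H r) k p x + (F r).gen (om r) (fun _ _ _ => 0) (D r) k p x
      = V F D a om bs r (D r) k p x + (F r).gen (om r) (fun _ _ _ => 0) (H r) k p x := by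
  unfold V
  rw [Flg.gen_split (φ := H r) (N.cm r) (N.omm r) (N.pot_meas r),
    Flg.gen_split (φ := D r) (N.cm r) (N.omm r) (N.pot_meas r)]
  ring

/-- prices below a label all of whose children are new -/
lemma opn_le_pr {r : ℕ} (hr : r + 1 < n) : ∀ k p x, (¬ (F (r + 1)).lf p →
    r + 1 ∈ nw ((F (r + 1)).cls p x :: p)) →
    opn F D a om (r + 1) k p x ≤ pr F D H a om bs nw r k p x := by
  intro k
  induction k with
  | zero => intro p x _; exact le_rfl
  | succ k ih =>
    intro p x hx
    by_cases h : (F (r + 1)).lf p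
    · unfold opn pr
      rw [Flg.gen_leaf h, Flg.gen_leaf h]
    · have hq := hx h
      unfold opn pr
      rw [Flg.gen_succ h, Flg.gen_succ h]
      refine fib_mono (fun y => ?_) x
      have hy := N.nwb (r + 1) hr _ y hq
      have h1 := ih ((F (r + 1)).cls p x :: p) y (fun hl => N.bsn (r + 1) hr _ y hy hl)
      unfold prl
      rw [if_pos hq]
      exact add_le_add le_rfl (mul_le_mul' le_rfl h1)

lemma prl_meas (r k : ℕ) (p : List ℕ) : Measurable (prl D H a om bs nw r k p) := by
  unfold prl
  by_cases h : r + 1 ∈ nw p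
  · simp only [if_pos h]
    exact (N.am _ _).sub (N.Dm _ _)
  · simp only [if_neg h]
    exact Measurable.ite (N.bsm _ _) ((N.omm _ _).mul ((N.am _ _).sub (N.Hm _ _)))
      measurable_const

lemma pr_meas (r k : ℕ) (p : List ℕ) : Measurable (pr F D H a om bs nw r k p) :=
  Flg.measurable_gen (N.cm _) (N.omm _) (N.prl_meas r) (fun _ => measurable_const) k p

/-- **the junction between two moves**, for a label whose node lives on -/
theorem junction {r : ℕ} (hr : r + 1 < n) : ∀ k p x, r + 1 ∉ nw p →
    V F D a om bs (r + 1) (D (r + 1)) k p x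
      ≤ V F D a om bs r (H r) k p x + pr F D H a om bs nw r k p x := by
  intro k
  induction k with
  | zero =>
    intro p x hp
    have := N.still r hr p hp
    simp only [V, pr, Flg.gen_zero, this, add_zero, le_refl]
  | succ k ih =>
    intro p x hp
    have hD := N.still r hr p hp
    by_cases h : (F (r + 1)).lf p
    · have h' := (N.lifeL r hr p hp).1 h
      unfold V pr
      rw [Flg.gen_leaf h, Flg.gen_leaf h, Flg.gen_leaf h', hD, add_zero]
    · have h' : ¬ (F r).lf p := fun h2 => h ((N.lifeL r hr p hp).2 h2)
      -- all children are new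
      have hA : r + 1 ∈ nw ((F (r + 1)).cls p x :: p) → r + 1 ∈ nw ((F r).cls p x :: p) →
          V F D a om bs (r + 1) (D (r + 1)) (k + 1) p x
            ≤ V F D a om bs r (H r) (k + 1) p x + pr F D H a om bs nw r (k + 1) p x := by
        intro h1 h2
        rw [N.V_start hr (k + 1) p x fun _ => h1, hD]
        exact add_le_add (N.V_end hr (k + 1) p x fun _ => h2)
          (N.opn_le_pr hr (k + 1) p x fun _ => h1)
      by_cases hx : x ∈ bs p (r + 1)
      · exact hA (N.bsn _ hr p x hx h) (N.bse r hr p x hx h')
      · have hc := N.blkC r hr p x hx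
        by_cases hq : r + 1 ∈ nw ((F r).cls p x :: p)
        · exact hA (by rw [hc]; exact hq) hq
        · set q := (F r).cls p x :: p with hqd
          have hVm := N.V_meas r (N.Hm r) k q
          unfold V pr
          rw [Flg.gen_succ h, Flg.gen_succ h, Flg.gen_succ h', hc, ← hqd,
            N.lifeW r hr p hp]
          have e1 := fib_add (W := (F r).W p) (f := fun y => pot D a om bs r k q y
              + om r q y * (F r).gen (om r) (pot D a om bs r) (H r) k q y)
            (g := fun y => prl D H a om bs nw r k q y + om (r + 1) q y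
              * (F (r + 1)).gen (om (r + 1)) (prl D H a om bs nw r) (fun _ _ => 0) k q y)
            ((N.pot_meas r k q).add ((N.omm r q).mul hVm)) x
          rw [← e1]
          refine fib_mono (fun y => ?_) x
          have ha := N.lifeA r hr q hq
          have hDq := N.still r hr q hq
          by_cases hy : y ∈ bs q (r + 1)
          · -- the block of `y` ends
            have h1 := N.V_start hr k q y fun hl => N.bsn (r + 1) hr q y hy hl
            have h2 := N.V_end hr k q y fun hl => N.bse r hr q y hy hl
            have h3 := N.opn_le_pr hr k q y fun hl => N.bsn (r + 1) hr q y hy hl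
            unfold V at h1 h2
            unfold opn pr at h3
            have e2 : pot D a om bs (r + 1) k q y
                = (a r q y - H r q y) + (1 - om (r + 1) q y) * H r q y := by
              unfold pot
              rw [Db_new hy, ha, hDq]
            have e3 : prl D H a om bs nw r k q y = om r q y * (a r q y - H r q y) := by
              unfold prl
              rw [if_neg hq, if_pos hy]
            have e4 : pot D a om bs r k q y
                = (a r q y - Db D bs r q y) + (1 - om r q y) * Db D bs r q y := rfl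
            rw [h1, e2, e3, e4, hDq]
            have hstep : (a r q y - H r q y) + (1 - om (r + 1) q y) * H r q y
                + om (r + 1) q y * (H r q y + opn F D a om (r + 1) k q y)
                = (a r q y - H r q y) + H r q y
                  + om (r + 1) q y * opn F D a om (r + 1) k q y := by
              rcases N.om01 (r + 1) q y with h0 | h0 <;> rw [h0]
              · simp
              · simp [add_assoc]
            rw [hstep]
            have hlast : om (r + 1) q y * opn F D a om (r + 1) k q y
                ≤ om (r + 1) q y * (F (r + 1)).gen (om (r + 1)) (prl D H a om bs nw r)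
                  (fun _ _ => 0) k q y := mul_le_mul' le_rfl h3
            rcases N.om01 r q y with h0 | h0
            · have h4 := N.rule r hr q y hy h0
              rw [h0, tsub_zero, one_mul, zero_mul, zero_mul, zero_add, add_zero,
                tsub_add_cancel_of_le h4]
              exact add_le_add le_tsub_add hlast
            · rw [h0, tsub_self, zero_mul, add_zero, one_mul, one_mul]
              set G := (F (r + 1)).gen (om (r + 1)) (prl D H a om bs nw r) (fun _ _ => 0) k q y
              set VV := (F r).gen (om r) (pot D a om bs r) (H r) k q y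
              calc a r q y - H r q y + H r q y + om (r + 1) q y * opn F D a om (r + 1) k q y
                  ≤ a r q y - H r q y + VV + om (r + 1) q y * G :=
                    add_le_add (add_le_add le_rfl h2) hlast
                _ = VV + ((a r q y - H r q y) + om (r + 1) q y * G) := by ring
                _ ≤ _ := add_le_add le_add_self le_rfl
          · -- the block of `y` goes on
            have h1 := ih q y hq
            unfold V pr at h1
            have e2 : pot D a om bs (r + 1) k q y = pot D a om bs r k q y := by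
              unfold pot
              rw [Db_old hy, ha, N.blkO r hr q y hy]
            have e3 : prl D H a om bs nw r k q y = 0 := by
              unfold prl
              rw [if_neg hq, if_neg hy]
            rw [e2, e3, N.blkO r hr q y hy, zero_add, add_assoc, ← mul_add]
            exact add_le_add le_rfl (mul_le_mul' le_rfl h1)

/-- **CONDITIONAL LEDGER** for any union of moves `u, .., m` inside one life of `p`, `x` any label. -/
theorem ledger (k : ℕ) (p : List ℕ) (x : E) (u : ℕ) : ∀ m, u ≤ m → m < n →
    (∀ r, u ≤ r → r < m → r + 1 ∉ nw p) →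
    V F D a om bs m (H m) k p x
        + ∑ r ∈ Finset.Icc u m, (F r).gen (om r) (fun _ _ _ => 0) (D r) k p x
      ≤ V F D a om bs u (D u) k p x
        + ∑ r ∈ Finset.Icc u m, (F r).gen (om r) (fun _ _ _ => 0) (H r) k p x
        + ∑ r ∈ Finset.Ico u m, pr F D H a om bs nw r k p x := by
  intro m hum
  induction m, hum using Nat.le_induction with
  | base =>
    intro _ _
    rw [Finset.Icc_self, Finset.sum_singleton, Finset.sum_singleton, Finset.Ico_self,
      Finset.sum_empty, add_zero, N.V_move]
  | succ m hum ih =>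
    intro hm hl
    have h1 := ih (by omega) fun r h1 h2 => hl r h1 (by omega)
    have h2 := N.junction hm k p x (hl m hum (by omega))
    have h3 := N.V_move (m + 1) k p x
    have e1 : Finset.Icc u (m + 1) = insert (m + 1) (Finset.Icc u m) := by
      ext r; simp only [Finset.mem_Icc, Finset.mem_insert]; omega
    have e2 : Finset.Ico u (m + 1) = insert m (Finset.Ico u m) := by
      ext r; simp only [Finset.mem_Ico, Finset.mem_insert]; omega
    rw [e1, e2, Finset.sum_insert (by simp), Finset.sum_insert (by simp),
      Finset.sum_insert (by simp)]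
    set SD := ∑ r ∈ Finset.Icc u m, (F r).gen (om r) (fun _ _ _ => 0) (D r) k p x
    set SH := ∑ r ∈ Finset.Icc u m, (F r).gen (om r) (fun _ _ _ => 0) (H r) k p x
    set SP := ∑ r ∈ Finset.Ico u m, pr F D H a om bs nw r k p x
    set gD := (F (m + 1)).gen (om (m + 1)) (fun _ _ _ => 0) (D (m + 1)) k p x
    set gH := (F (m + 1)).gen (om (m + 1)) (fun _ _ _ => 0) (H (m + 1)) k p x
    calc V F D a om bs (m + 1) (H (m + 1)) k p x + (gD + SD)
        = (V F D a om bs (m + 1) (H (m + 1)) k p x + gD) + SD := by ring
      _ = V F D a om bs (m + 1) (D (m + 1)) k p x + gH + SD := by rw [h3]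
      _ ≤ (V F D a om bs m (H m) k p x + pr F D H a om bs nw m k p x) + gH + SD := by gcongr
      _ = (V F D a om bs m (H m) k p x + SD) + (pr F D H a om bs nw m k p x + gH) := by ring
      _ ≤ (V F D a om bs u (D u) k p x + SH + SP)
          + (pr F D H a om bs nw m k p x + gH) := by gcongr
      _ = _ := by ring

/-- the ledger with values instead of potentials: from the start of a block of `x` to the end of any
move `m` of the same life -/
theorem ledger_value (k : ℕ) (p : List ℕ) (x : E) {u m : ℕ} (hum : u ≤ m) (hm : m < n)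
    (hx : x ∈ bs p u) (hl : ∀ r, u ≤ r → r < m → r + 1 ∉ nw p) :
    H m p x + ∑ r ∈ Finset.Icc u m, (F r).gen (om r) (fun _ _ _ => 0) (D r) k p x
      ≤ D u p x + ∑ r ∈ Finset.Icc u m, (F r).gen (om r) (fun _ _ _ => 0) (H r) k p x
        + (opn F D a om u k p x + ∑ r ∈ Finset.Ico u m, pr F D H a om bs nw r k p x)
        + cut F a om m (H m) k p x := by
  have h1 := N.ledger k p x u m hum hm hl
  have h2 := N.V_start (by omega) k p x fun hlf => N.bsn u (by omega) p x hx hlf
  have h3 := N.le_V_cut (r := m) (N.Hm m) (fun p x => N.towH m hm p x) k p x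
  rw [h2] at h1
  calc _ ≤ (V F D a om bs m (H m) k p x + cut F a om m (H m) k p x)
        + ∑ r ∈ Finset.Icc u m, (F r).gen (om r) (fun _ _ _ => 0) (D r) k p x :=
        add_le_add h3 le_rfl
    _ = (V F D a om bs m (H m) k p x
        + ∑ r ∈ Finset.Icc u m, (F r).gen (om r) (fun _ _ _ => 0) (D r) k p x)
        + cut F a om m (H m) k p x := by ring
    _ ≤ _ := by
      refine (add_le_add h1 le_rfl).trans_eq ?_
      ring

end Net

end Vale.Agent.P262.H136
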